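import Mathlib
import Vale.Agent.P264.Sol

/-! The numerical certificate (interface between block B and block C), see notes/P264.md.
All jets are scaled: `a j = ξ^j m^(j)(ξ)`. -/

open Set MeasureTheory

namespace Vale.Agent.P264

/-- `A / ξ` for the weights `V1 = ξ^3 g1`, `V0 = ξ g0`; `g1d = ξ g1'`. -/
def Ahat (g1 g1d g0 : ℝ) (a : ℕ → ℝ) : ℝ := -g1 * a 2 - (3 * g1 + g1d) * a 1 + g0 * a 0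

/-- `A'`; `g1d = ξ g1'`, `g1dd = ξ^2 g1''`, `g0d = ξ g0'`. -/
def Ader (g1 g1d g1dd g0 g0d : ℝ) (a : ℕ → ℝ) : ℝ :=
  -g1 * a 3 - 2 * (3 * g1 + g1d) * a 2 + (g0 - (6 * g1 + 6 * g1d + g1dd)) * a 1
    + (g0 + g0d) * a 0

/-- `ξ` times the derivative of the linearised scalar curvature. -/
def sig1 (a : ℕ → ℝ) : ℝ := a 3 + 18 * a 2 + 72 * a 1

/-- The flux quadratic form with coefficients `q 0 .. q 5 = q00 q01 q02 q11 q12 q22`. -/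
def flux (q : ℕ → ℝ) (a : ℕ → ℝ) : ℝ :=
  q 0 * a 0 ^ 2 + 2 * q 1 * a 0 * a 1 + 2 * q 2 * a 0 * a 2 + q 3 * a 1 ^ 2
    + 2 * q 4 * a 1 * a 2 + q 5 * a 2 ^ 2

/-- The part of `ξ d/dξ (flux q a)` coming from `D a0 = a1, D a1 = a1 + a2, D a2 = 2 a2 + a3`. -/
def fluxD (q : ℕ → ℝ) (a : ℕ → ℝ) : ℝ :=
  2 * (q 0 * a 0 + q 1 * a 1 + q 2 * a 2) * a 1
    + 2 * (q 1 * a 0 + q 3 * a 1 + q 4 * a 2) * (a 1 + a 2)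
    + 2 * (q 2 * a 0 + q 4 * a 1 + q 5 * a 2) * (2 * a 2 + a 3)

/-- `ξ` times the quadratic energy production density; `Y1 = ξ Y'`. -/
noncomputable def prod2 (ξ Y Y1 g1 g1d g1dd g0 g0d : ℝ) (a : ℕ → ℝ) : ℝ :=
  2 * (Y ^ 2 * Ader g1 g1d g1dd g0 g0d a + 2 * Y * Y1 * Ahat g1 g1d g0 a) * sig1 a
    + 2 * ξ ^ 2 * (Y1 / Y) * Ahat g1 g1d g0 a * a 0
    + ξ ^ 2 / 2 * g1d * a 1 ^ 2 + ξ ^ 2 / 2 * g0d * a 0 ^ 2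

/-- The certificate. `W k` is the `k`-th derivative of the approximate profile;
`g1 ξ k`, `g0 ξ k`, `r i ξ k`, `f i ξ k` are `k`-th derivatives; `q ξ` are the flux coefficients
and `qd ξ` their derivatives. -/
structure Cert where
  W : ℝ → ℕ → ℝ
  g1 : ℝ → ℕ → ℝ
  g0 : ℝ → ℕ → ℝ
  q : ℝ → ℕ → ℝ
  qd : ℝ → ℕ → ℝ
  r : ℕ → ℝ → ℕ → ℝ
  f : ℕ → ℝ → ℕ → ℝ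
  Bk : Finset ℝ
  x1 : ℝ
  x2 : ℝ
  xt : ℝ
  xs : ℝ
  ct : ℝ
  hx1 : 1 ≤ x1
  hx12 : x1 < x2
  hx2t : x2 < xt
  hxt : 32 ≤ xt
  hxt' : xt ≤ 1000
  hxs : 0 < xs
  hct : 5 ≤ ct
  -- profile
  dW : ∀ k ξ, k ≤ 2 → 0 ≤ ξ → HasDerivAt (fun y => W y k) (W ξ (k + 1)) ξ
  dW3 : ∀ ξ, 0 < ξ → ξ ∉ Bk → HasDerivAt (fun y => W y 3) (W ξ 4) ξ
  cW3 : ContinuousOn (fun y => W y 3) (Ici 0)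
  mW4 : Measurable (fun y => W y 4)
  bW : ∀ k ξ, k ≤ 4 → 0 ≤ ξ → |W ξ k| * (1 + ξ) ^ (k + 1) ≤ 10 ^ 6
  bY : ∀ ξ, 0 ≤ ξ → 1 / 20 ≤ 1 - ξ * W ξ 0 ∧ 1 - ξ * W ξ 0 ≤ 1
  bY1 : ∀ ξ, 0 ≤ ξ → |W ξ 0 + ξ * W ξ 1| * (1 + ξ) ^ 3 ≤ 10 ^ 6
  bYs : 1 - xs * W xs 0 ≤ 1 / 2
  res : ∀ ξ, 0 < ξ →
    |-(1 - ξ * W ξ 0) ^ 2 * S2 (W ξ) ξ - (W ξ 0 + ξ * W ξ 1) / 2| * (1 + ξ) ^ 3 ≤ 1 / 10 ^ 130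
  -- weights
  dg1 : ∀ ξ, 0 < ξ → HasDerivAt (fun y => g1 y 0) (g1 ξ 1) ξ
  dg1' : ∀ ξ, 0 < ξ → ξ ∉ Bk → HasDerivAt (fun y => g1 y 1) (g1 ξ 2) ξ
  cg1 : ContinuousOn (fun y => g1 y 1) (Ioi 0)
  mg1 : Measurable (fun y => g1 y 2)
  dg0 : ∀ ξ, 0 < ξ → ξ ∉ Bk → HasDerivAt (fun y => g0 y 0) (g0 ξ 1) ξ
  cg0 : ContinuousOn (fun y => g0 y 0) (Ioi 0)
  mg0 : Measurable (fun y => g0 y 1)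
  dq : ∀ i ξ, 0 < ξ → ξ ∉ Bk → HasDerivAt (fun y => q y i) (qd ξ i) ξ
  cq : ∀ i, ContinuousOn (fun y => q y i) (Ioi 0)
  mq : ∀ i, Measurable (fun y => qd y i)
  bg1 : ∀ ξ, 0 < ξ → 1 ≤ g1 ξ 0 ∧ g1 ξ 0 ≤ 10 ^ 14 ∧ |ξ * g1 ξ 1| ≤ 10 ^ 14 ∧
    |ξ ^ 2 * g1 ξ 2| ≤ 10 ^ 14
  bg0 : ∀ ξ, 0 < ξ → |g0 ξ 0| ≤ 10 ^ 14 * (ξ / (1 + ξ)) ∧ |ξ * g0 ξ 1| ≤ 10 ^ 14 * (ξ / (1 + ξ))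
  bq : ∀ i ξ, 0 < ξ → |q ξ i| ≤ 10 ^ 14 ∧ |ξ * qd ξ i| ≤ 10 ^ 14
  bq0 : ∀ i ξ, i ≤ 2 → 0 < ξ →
    |q ξ i| ≤ 10 ^ 14 * (ξ / (1 + ξ)) ∧ |ξ * qd ξ i| ≤ 10 ^ 14 * (ξ / (1 + ξ))
  tail : ∀ ξ, xt ≤ ξ → g1 ξ 0 = ct ∧ g1 ξ 1 = 0 ∧ g1 ξ 2 = 0 ∧ g0 ξ 0 = -ct / 2 ∧ g0 ξ 1 = 0
  /-- the Lyapunov inequality -/
  main : ∀ ξ, 0 < ξ → ∀ a : ℕ → ℝ,
    prod2 ξ (1 - ξ * W ξ 0) (-ξ * (W ξ 0 + ξ * W ξ 1)) (g1 ξ 0) (ξ * g1 ξ 1) (ξ ^ 2 * g1 ξ 2)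
        (g0 ξ 0) (ξ * g0 ξ 1) a + ξ * flux (qd ξ) a + fluxD (q ξ) a
      ≤ -(ξ / (1 + ξ) * a 0 ^ 2 + a 1 ^ 2 + a 2 ^ 2 + a 3 ^ 2)
  -- index at most two: fluxes `r i ξ 0 * ξ^2 * a0^2` on `(0,x1]`, `[x1,x2]`, `[x2,∞)`
  dr : ∀ i ξ, 0 < ξ → ξ ∉ Bk → HasDerivAt (fun y => r i y 0) (r i ξ 1) ξ
  cr : ∀ i, ContinuousOn (fun y => r i y 0) (Ioi 0)
  mr : ∀ i, Measurable (fun y => r i y 1)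
  br : ∀ i ξ, 0 < ξ → |r i ξ 0| ≤ 10 ^ 14 ∧ |ξ * r i ξ 1| ≤ 10 ^ 14
  rtail : ∀ ξ, xt ≤ ξ → r 2 ξ 0 = ct ∧ r 2 ξ 1 = 0
  index : ∀ i ξ, 0 < ξ → (i = 0 ∧ ξ < x1) ∨ (i = 1 ∧ x1 ≤ ξ ∧ ξ < x2) ∨ (i = 2 ∧ x2 ≤ ξ) →
    ∀ a0 a1 : ℝ, a0 ^ 2 + a1 ^ 2 ≤ g1 ξ 0 * a1 ^ 2 + g0 ξ 0 * a0 ^ 2
      + (ξ * r i ξ 1 + 2 * r i ξ 0) * a0 ^ 2 + 2 * r i ξ 0 * a0 * a1
  -- two negative directions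
  df : ∀ i k ξ, k ≤ 1 → 0 ≤ ξ → HasDerivAt (fun y => f i y k) (f i ξ (k + 1)) ξ
  cf : ∀ i, ContinuousOn (fun y => f i y 2) (Ici 0)
  bf : ∀ i k ξ, k ≤ 2 → 0 ≤ ξ → |f i ξ k| ≤ 1
  ftail : ∀ i k ξ, xt ≤ ξ → f i ξ k = 0
  neg : ∀ θ0 θ1 : ℝ, ∫ ξ in (0:ℝ)..xt, ξ * (g1 ξ 0 * (ξ * (θ0 * f 0 ξ 1 + θ1 * f 1 ξ 1)) ^ 2
    + g0 ξ 0 * (θ0 * f 0 ξ 0 + θ1 * f 1 ξ 0) ^ 2) ≤ -(θ0 ^ 2 + θ1 ^ 2)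

end Vale.Agent.P264
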